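import Mathlib

/-!
# P022K, block RU: framed lifts over finite local rings, for an abstract group

A test object is a finite local ring with a lift of the residual representation in normal form
and a frame at each element of `T`. The set `I` lists the elements that must act trivially.
-/

set_option linter.all false

noncomputable section

namespace Vale.Agent.P022K.RU

/-- `2 × 2` matrices -/
abbrev M2 (F : Type) : Type := Matrix (Fin 2) (Fin 2) F

/-- the fixed data -/
structure Dat (O F G T : Type) [CommRing O] [Field F] [Group G] where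
  red : O →+* F
  rb : G →* M2 F
  g0 : G
  g1 : G
  lam : O
  l0 : T
  surj : Function.Surjective red
  d01 : rb g0 0 1 = 0
  d10 : rb g0 1 0 = 0
  dne : rb g0 0 0 ≠ rb g0 1 1
  n01 : rb g1 0 1 ≠ 0

variable {O F G T : Type} [CommRing O] [Field F] [Group G] [TopologicalSpace G]

/-- a framed lift in normal form over a finite local ring; the local representation at `l` is
`β l * ρ g * α l` -/
structure Obj (S : Dat O F G T) (A : Type) [CommRing A] where
  ι : O →+* A
  π : A →+* F
  ρ : G →* M2 A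
  α : T → M2 A
  β : T → M2 A
  fin : Finite A
  loc : ∀ a, π a ≠ 0 → IsUnit a
  alg : ∀ c, π (ι c) = S.red c
  res : ∀ g, (ρ g).map π = S.rb g
  opn : IsOpen {g | ρ g = 1}
  dg : ρ S.g0 0 1 = 0 ∧ ρ S.g0 1 0 = 0
  nm : ρ S.g1 0 1 = ι S.lam
  inv : ∀ l, α l * β l = 1
  one : ∀ l, (α l).map π = 1
  fr : α S.l0 0 0 = 1

variable {S : Dat O F G T}

/-- morphisms of test objects -/
structure Hom {A B : Type} [CommRing A] [CommRing B] (X : Obj S A) (Y : Obj S B)
    (u : A →+* B) : Prop where
  ι : ∀ c, u (X.ι c) = Y.ι c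
  ρ : ∀ g, (X.ρ g).map u = Y.ρ g
  α : ∀ l, (X.α l).map u = Y.α l

/-- trivial on `I` -/
def Unr {A : Type} [CommRing A] (X : Obj S A) (I : Set G) : Prop := ∀ g ∈ I, X.ρ g = 1

variable (S) in
/-- classes of test objects -/
abbrev Cl : Type 1 := ∀ (A : Type) [CommRing A], Obj S A → Prop

/-- a class which is stable under images and under jointly injective pairs -/
structure Closed (C : Cl S) : Prop where
  push : ∀ (A B : Type) [CommRing A] [CommRing B] (X : Obj S A) (Y : Obj S B) (u : A →+* B),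
    Hom X Y u → C A X → C B Y
  pull : ∀ (A B B' : Type) [CommRing A] [CommRing B] [CommRing B'] (X : Obj S A) (Y : Obj S B)
    (Y' : Obj S B') (u : A →+* B) (u' : A →+* B'), Hom X Y u → Hom X Y' u' →
    (∀ a, u a = 0 → u' a = 0 → a = 0) → C B Y → C B' Y' → C A X

/-- the objects of `C` which are trivial on `I` -/
def Ty (C : Cl S) (I : Set G) : Cl S := fun A _ X => C A X ∧ Unr X I

variable (S) in
/-- families of coordinates -/
abbrev Crd (τ : Type) : Type 1 := ∀ (A : Type) [CommRing A], Obj S A → τ → A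

/-- local coordinates: natural, in the maximal ideal, and their vanishing over the dual numbers
forces the local representations to be constant; the determinant is constant on `E` -/
structure Loc {τ : Type} (D : T → Set G) (E : Set G) (C : Cl S) (κ : Crd S τ) : Prop where
  nat : ∀ (A B : Type) [CommRing A] [CommRing B] (X : Obj S A) (Y : Obj S B) (u : A →+* B),
    Hom X Y u → C A X → ∀ i, u (κ A X i) = κ B Y i
  res : ∀ (A : Type) [CommRing A] (X : Obj S A), C A X → ∀ i, X.π (κ A X i) = 0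
  tan : ∀ Y : Obj S (DualNumber F), (∀ a, Y.π a = a.fst) →
    (∀ c, Y.ι c = TrivSqZeroExt.inl (S.red c)) → C _ Y → (∀ i, κ _ Y i = 0) →
    ∀ l, ∀ g ∈ D l, Y.β l * Y.ρ g * Y.α l = (S.rb g).map TrivSqZeroExt.inl
  det : ∀ Y : Obj S (DualNumber F), (∀ a, Y.π a = a.fst) →
    (∀ c, Y.ι c = TrivSqZeroExt.inl (S.red c)) → C _ Y →
    ∀ g ∈ E, (Y.ρ g).det = TrivSqZeroExt.inl (S.rb g).det

/-- a relative tangent vector: a continuous cocycle, zero on `I`, of trace zero on `E`, with a
trivialisation at each element of `T` -/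
structure TanP (rb : G →* M2 F) (D : T → Set G) (E I : Set G) (c : G → M2 F) (a : T → M2 F) :
    Prop where
  coc : ∀ g h, c (g * h) = c g + rb g * c h * rb g⁻¹
  opn : ∃ U : Subgroup G, IsOpen (U : Set G) ∧ U.Normal ∧ ∀ σ ∈ U, c σ = 0 ∧ rb σ = 1
  unr : ∀ g ∈ I, c g = 0
  loc : ∀ l, ∀ g ∈ D l, c g = a l - rb g * a l * rb g⁻¹
  tr : ∀ g ∈ E, (c g).trace = 0

/-- the space of relative tangent vectors has dimension at most `N` -/
def Tan (rb : G →* M2 F) (D : T → Set G) (E I : Set G) (N : ℕ) : Prop :=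
  ∀ Z : Submodule F ((G → M2 F) × (T → M2 F)), (∀ z ∈ Z, TanP rb D E I z.1 z.2) →
    Module.rank F Z ≤ N

/-- the names of the entries -/
abbrev Ent (G T : Type) : Type := (G ⊕ T ⊕ T) × Fin 2 × Fin 2

/-- polynomials in the entries -/
abbrev W (O G T : Type) [CommRing O] : Type := MvPolynomial (Ent G T) O

/-- the matrices of an object -/
def Obj.mat {A : Type} [CommRing A] (X : Obj S A) : G ⊕ T ⊕ T → M2 A :=
  Sum.elim (fun g => X.ρ g) (Sum.elim X.α X.β)

/-- evaluation of polynomials in the entries of `ρ g`, `α l`, `β l` -/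
def Obj.ev {A : Type} [CommRing A] (X : Obj S A) : W O G T →+* A :=
  MvPolynomial.eval₂Hom X.ι fun v => X.mat v.1 v.2.1 v.2.2

/-- power series in the local coordinates and `g` more variables -/
abbrev PS (O τ : Type) [CommRing O] (g : ℕ) : Type := MvPowerSeries (τ ⊕ Fin g) O

variable (S) in
/-- families of homomorphisms from the power series ring -/
abbrev Fam (τ : Type) (g : ℕ) : Type 1 :=
  ∀ (A : Type) [CommRing A], Obj S A → (PS O τ g →+* A)

/-- the power series ring surjects onto the universal ring of the class `C` -/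
structure Univ {τ : Type} {g : ℕ} (C : Cl S) (κ : Crd S τ) (Φ : Fam S τ g) : Prop where
  cst : ∀ (A : Type) [CommRing A] (X : Obj S A), C A X →
    ∀ c, Φ A X (MvPowerSeries.C c) = X.ι c
  crd : ∀ (A : Type) [CommRing A] (X : Obj S A), C A X →
    ∀ i, Φ A X (MvPowerSeries.X (Sum.inl i)) = κ A X i
  res : ∀ (A : Type) [CommRing A] (X : Obj S A), C A X →
    ∀ f, X.π (Φ A X f) = S.red (MvPowerSeries.constantCoeff f)
  nat : ∀ (A B : Type) [CommRing A] [CommRing B] (X : Obj S A) (Y : Obj S B) (u : A →+* B),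
    C A X → C B Y → Hom X Y u → ∀ f, u (Φ A X f) = Φ B Y f
  gen : ∀ w : W O G T, ∃ f, ∀ (A : Type) [CommRing A] (X : Obj S A), C A X → Φ A X f = X.ev w
  rng : ∀ (A : Type) [CommRing A] (X : Obj S A), C A X → ∀ f, ∃ w : W O G T, Φ A X f = X.ev w

/-- **The output of the block.** -/
def UNIV : Prop := ∀ (O F G T τ : Type) [CommRing O] [IsLocalRing O] [IsNoetherianRing O]
  [IsPrecomplete (IsLocalRing.maximalIdeal O) O] [Field F] [Group G] [TopologicalSpace G]
  [IsTopologicalGroup G] [CompactSpace G] [Finite τ] (S : Dat O F G T)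
  (D : T → Set G) (E I : Set G) (g : ℕ) (C : Cl S) (κ : Crd S τ),
  (∀ c, S.red c = 0 ↔ c ∈ IsLocalRing.maximalIdeal O) → Closed C → Loc D E C κ →
  (∃ (A : Type) (_ : CommRing A) (X : Obj S A), Ty C I A X) → Tan S.rb D E I (g + 4) →
  ∃ Φ₀ : Fam S τ g, Univ (Ty C I) κ Φ₀ ∧ ∀ I' ⊆ I, Tan S.rb D E I' (g + 4) →
    ∃ Φ : Fam S τ g, Univ (Ty C I') κ Φ ∧
      ∀ (A : Type) [CommRing A] (X : Obj S A), Ty C I A X → Φ A X = Φ₀ A X

end Vale.Agent.P022K.RU
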