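import Vale.Agent.P022K.RU.Tan

/-!
# P022K, block RU: the power series ring surjects onto the universal framed ring
-/

set_option linter.all false

noncomputable section

namespace Vale.Agent.P022K.RU

open Filter
open Vale.Agent.P022D.R (ker_nil Van van_of_pow evl evl_eq evl_C evl_X map_evl evl_zero evl_eq_zero
  ulim_ser exists_ultra pro sub_top)

variable {O F G T : Type} [CommRing O] [Field F] [Group G] [TopologicalSpace G]
  [IsTopologicalGroup G] {S : Dat O F G T} {τ : Type} {D : T → Set G} {E : Set G} {g : ℕ}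
  {C C' : Cl S} {κ : Crd S τ}

/-- the kernels of the objects of a class -/
def Kers (C : Cl S) : Set (Ideal (W O G T)) :=
  {I | ∃ Z : Obj S (W O G T ⧸ I), C _ Z ∧ ∀ w, Z.ev w = Ideal.Quotient.mk I w}

theorem ker_mem (hC : Closed C) {A : Type} [CommRing A] {X : Obj S A} (h : C A X) :
    RingHom.ker X.ev ∈ Kers C := by
  obtain ⟨Z, u, u', a, b, c, d⟩ := exists_can X X (RingHom.ker X.ev) fun w =>
    ⟨fun h => ⟨h, h⟩, fun h => h.1⟩
  exact ⟨Z, hC.pull _ _ _ Z X X u u' b c d h h, a⟩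

theorem inf_mem (hC : Closed C) : ∀ I ∈ Kers C, ∀ J ∈ Kers C, I ⊓ J ∈ Kers C := by
  rintro I ⟨X, h, e⟩ J ⟨Y, h', e'⟩
  obtain ⟨Z, u, u', a, b, c, d⟩ := exists_can X Y (I ⊓ J) fun w => by
    rw [e, e', Ideal.Quotient.eq_zero_iff_mem, Ideal.Quotient.eq_zero_iff_mem, Ideal.mem_inf]
  exact ⟨Z, hC.pull _ _ _ Z X Y u u' b c d h h', a⟩

theorem ker_le {A : Type} [CommRing A] (X : Obj S A) : RingHom.ker X.ev ≤ RingHom.ker (πW S) :=
  fun w hw => by rw [RingHom.mem_ker, ← π_ev X, RingHom.mem_ker.1 hw, map_zero]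

theorem can_ker {I : Ideal (W O G T)} {Z : Obj S (W O G T ⧸ I)}
    (e : ∀ w, Z.ev w = Ideal.Quotient.mk I w) : RingHom.ker Z.ev = I :=
  Ideal.ext fun w => by rw [RingHom.mem_ker, e, Ideal.Quotient.eq_zero_iff_mem]

theorem kers_le {I : Ideal (W O G T)} (h : I ∈ Kers C) : I ≤ RingHom.ker (πW S) := by
  obtain ⟨Z, _, e⟩ := h
  exact (can_ker e).ge.trans (ker_le Z)

theorem can_hom {I : Ideal (W O G T)} {Z : Obj S (W O G T ⧸ I)}
    (e : ∀ w, Z.ev w = Ideal.Quotient.mk I w) {A : Type} [CommRing A] (X : Obj S A)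
    (h : I ≤ RingHom.ker X.ev) : Hom Z X (Ideal.Quotient.lift I X.ev fun _ hw => h hw) :=
  hom_of_ev fun w => by rw [e]; rfl

variable (C κ) in
/-- polynomials which give the coordinates modulo `I` -/
def IsK (I : Ideal (W O G T)) (k : τ → W O G T) : Prop :=
  (∀ i, πW S (k i) = 0) ∧ ∀ (A : Type) [CommRing A] (X : Obj S A), C A X →
    I ≤ RingHom.ker X.ev → ∀ i, X.ev (k i) = κ A X i

theorem exists_isK (hL : Loc D E C κ) {I : Ideal (W O G T)} (h : I ∈ Kers C) : ∃ k, IsK C κ I k := by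
  obtain ⟨Z, c, e⟩ := h
  choose k hk using fun i => Ideal.Quotient.mk_surjective (κ _ Z i)
  refine ⟨k, fun i => by rw [← π_ev Z, e, hk, hL.res _ Z c], fun A _ X _ b i => ?_⟩
  rw [← hL.nat _ _ Z X _ (can_hom e X b) c, ← hk]
  rfl

theorem IsK.mono {I J : Ideal (W O G T)} {k : τ → W O G T} (h : IsK C κ I k) (e : I ≤ J) :
    IsK C κ J k := ⟨h.1, fun A _ X a b => h.2 A X a (e.trans b)⟩

theorem IsK.sub {I : Ideal (W O G T)} {k k' : τ → W O G T} (h : IsK C κ I k) (h' : IsK C κ I k')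
    (hI : I ∈ Kers C) (i : τ) : k i - k' i ∈ I := by
  obtain ⟨Z, c, e⟩ := hI
  rw [← Ideal.Quotient.eq, ← e, ← e, h.2 _ Z c (can_ker e).ge, h'.2 _ Z c (can_ker e).ge]

variable (S) in
/-- the ideal which cuts out the relative cotangent space -/
def KK (I : Ideal (W O G T)) (k : τ → W O G T) : Ideal (W O G T) :=
  I ⊔ Ideal.span (Set.range k) ⊔ (RingHom.ker S.red).map MvPolynomial.C ⊔ RingHom.ker (πW S) ^ 2

variable (C κ) in
/-- `x` generates the relative cotangent space modulo `I` -/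
def Gn (I : Ideal (W O G T)) (x : Fin g → W O G T) : Prop :=
  (∀ i, πW S (x i) = 0) ∧ ∃ k, IsK C κ I k ∧
    RingHom.ker (πW S) ≤ KK S I k ⊔ Ideal.span (Set.range x)

theorem span_le_sup {R ι : Type} [CommRing R] {J : Ideal R} {x x' : ι → R}
    (h : ∀ i, x i - x' i ∈ J) : Ideal.span (Set.range x) ≤ J ⊔ Ideal.span (Set.range x') := by
  refine Ideal.span_le.2 ?_
  rintro _ ⟨i, rfl⟩
  exact Submodule.mem_sup.2 ⟨_, h i, _, Ideal.subset_span ⟨i, rfl⟩, sub_add_cancel _ _⟩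

theorem le_KK (I : Ideal (W O G T)) (k : τ → W O G T) : I ≤ KK S I k :=
  le_sup_left.trans (le_sup_left.trans le_sup_left)

theorem KK_le {I J : Ideal (W O G T)} {k k' : τ → W O G T} (h : ∀ i, k' i - k i ∈ J) :
    KK S J k' ≤ KK S I k ⊔ J := by
  refine sup_le (sup_le (sup_le le_sup_right ((span_le_sup h).trans (sup_le le_sup_right ?_)))
    ?_) ?_
  · exact (le_sup_right.trans (le_sup_left.trans le_sup_left)).trans le_sup_left
  · exact (le_sup_right.trans le_sup_left).trans le_sup_left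
  · exact le_sup_right.trans le_sup_left

theorem Gn.mono {I J : Ideal (W O G T)} (hJ : J ≤ RingHom.ker (πW S)) (e : I ≤ J)
    {x x' : Fin g → W O G T} (h : Gn C κ I x) (hx : ∀ i, x i - x' i ∈ J) : Gn C κ J x' := by
  obtain ⟨a, k, b, c⟩ := h
  refine ⟨fun i => ?_, k, b.mono e, c.trans (sup_le ?_ ((span_le_sup hx).trans ?_))⟩
  · have := RingHom.mem_ker.1 (hJ (hx i))
    rwa [map_sub, a, zero_sub, neg_eq_zero] at this
  · refine le_trans ?_ le_sup_left
    exact sup_le_sup_right (sup_le_sup_right (sup_le_sup_right e _) _) _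
  · exact sup_le_sup_right (le_KK J k) _

theorem kers_mono (h : ∀ (A : Type) [CommRing A] (X : Obj S A), C' A X → C A X) :
    Kers C' ⊆ Kers C := fun _ ⟨Z, a, b⟩ => ⟨Z, h _ Z a, b⟩

theorem step {Q : Set G} (hC : Closed C) (hL : Loc D E C κ) (hT : Tan S.rb D E Q (g + 4))
    {I J : Ideal (W O G T)} (hI : I ∈ Kers (Ty C Q)) (hJ : J ≤ RingHom.ker (πW S))
    (y : Fin g → W O G T) (hy : ∀ i, πW S (y i) = 0)
    (h : ∀ k, IsK C κ I k → RingHom.ker (πW S) ≤ KK S I k ⊔ J ⊔ Ideal.span (Set.range y)) :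
    ∃ x, Gn C κ I x ∧ ∀ i, x i - y i ∈ J := by
  obtain ⟨k, hk⟩ := exists_isK hL (kers_mono (fun _ _ _ a => a.1) hI)
  have hm := kers_le hI
  obtain ⟨Z, c, e⟩ := hI
  obtain ⟨x, a, b⟩ := P022D.NR.tan (MvPolynomial.C : O →+* W O G T) (πW S)
    (fun t => by
      obtain ⟨o, rfl⟩ := S.surj t
      exact ⟨o, πW_C o⟩) (KK S I k) J
    (sup_le (sup_le (sup_le hm (Ideal.span_le.2 (by rintro _ ⟨i, rfl⟩; exact hk.1 i)))
      (Ideal.map_le_iff_le_comap.2 fun o ho => (πW_C o).trans ho))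
      (Ideal.pow_le_self two_ne_zero)) le_sup_right
    (fun o ho => Ideal.mem_sup_left (Ideal.mem_sup_right
      (Ideal.mem_map_of_mem _ ((πW_C o).symm.trans ho))))
    (der_rank hC hL hT Z e c (le_KK I k) k
      (fun i => by rw [← e, hk.2 _ Z c.1 (can_ker e).ge])
      (fun i => Ideal.mem_sup_left (Ideal.mem_sup_left (Ideal.mem_sup_right
        (Ideal.subset_span ⟨i, rfl⟩))))) hJ y hy (h k hk)
  refine ⟨x, ⟨fun i => ?_, k, hk, b⟩, a⟩
  have := RingHom.mem_ker.1 (hJ (a i))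
  rwa [map_sub, hy, sub_zero] at this

variable [Finite τ]

variable (κ) in
/-- the values of the variables -/
def vals (x : Ideal (W O G T) → Fin g → W O G T) (A : Type) [CommRing A] (X : Obj S A) : τ ⊕ Fin g → A :=
  Sum.elim (κ A X) fun i => X.ev (x (RingHom.ker X.ev) i)

variable (κ) in
/-- the family given by compatible generators -/
def fam (x : Ideal (W O G T) → Fin g → W O G T) : Fam S τ g := fun A _ X => evl X.ι (vals κ x A X)

theorem univ_fam [IsLocalRing O] [IsNoetherianRing O]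
    [IsPrecomplete (IsLocalRing.maximalIdeal O) O]
    (hO : ∀ c, S.red c = 0 ↔ c ∈ IsLocalRing.maximalIdeal O) (hC' : Closed C') (hL : Loc D E C κ)
    (hle : ∀ (A : Type) [CommRing A] (X : Obj S A), C' A X → C A X) (hne : (Kers C').Nonempty)
    (x : Ideal (W O G T) → Fin g → W O G T) (h1 : ∀ I ∈ Kers C', Gn C κ I (x I))
    (h2 : ∀ I ∈ Kers C', ∀ J ∈ Kers C', I ≤ J → ∀ i, x I i - x J i ∈ J) :
    Univ C' κ (fam κ x) := by
  have v0 : ∀ (A : Type) [CommRing A] (X : Obj S A), C' A X → ∀ s, X.π (vals κ x A X s) = 0 := by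
    rintro A _ X h (i | i)
    · exact hL.res A X (hle A X h) i
    · exact (π_ev X _).trans ((h1 _ (ker_mem hC' h)).1 i)
  have van : ∀ (A : Type) [CommRing A] (X : Obj S A), C' A X → ∀ n, RingHom.ker X.π ^ n = ⊥ →
      Van X.ι (vals κ x A X) n := fun A _ X h n hn => van_of_pow _ _ _ hn (v0 A X h)
  have res : ∀ (A : Type) [CommRing A] (X : Obj S A), C' A X →
      ∀ f, X.π (fam κ x A X f) = S.red (MvPowerSeries.constantCoeff f) := fun A _ X h f => by
    obtain ⟨n, hn⟩ := X.nil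
    rw [fam, map_evl (van A X h n hn), funext (v0 A X h), evl_zero]
    exact X.alg _
  have nat : ∀ (A B : Type) [CommRing A] [CommRing B] (X : Obj S A) (Y : Obj S B) (u : A →+* B),
      C' A X → C' B Y → Hom X Y u → ∀ f, u (fam κ x A X f) = fam κ x B Y f :=
    fun A B _ _ X Y u h h' k f => by
      obtain ⟨n, hn⟩ := X.nil
      have e1 : u.comp X.ι = Y.ι := RingHom.ext k.ι
      have e2 : (fun s => u (vals κ x A X s)) = vals κ x B Y := by
        funext s
        rcases s with i | i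
        · exact hL.nat A B X Y u k (hle A X h) i
        · refine (k.ev _).trans ?_
          have := RingHom.mem_ker.1 (h2 _ (ker_mem hC' h) _ (ker_mem hC' h') (fun w hw => by
            rw [RingHom.mem_ker, ← k.ev, RingHom.mem_ker.1 hw, map_zero]) i)
          rwa [map_sub, sub_eq_zero] at this
      rw [fam, map_evl (van A X h n hn), e1, e2, fam]
  have srj : ∀ (I : Ideal (W O G T)) (Z : Obj S (W O G T ⧸ I)), C' _ Z →
      (∀ w, Z.ev w = Ideal.Quotient.mk I w) → ∀ a, ∃ f, fam κ x _ Z f = a := by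
    intro I Z c e a
    obtain ⟨n, hn⟩ := Z.nil
    have hv := van _ Z c n hn
    refine sub_top (RingHom.ker Z.π) hn (fam κ x _ Z).range (fun a => ?_) (fun a ha => ?_) a
    · obtain ⟨o, ho⟩ := S.surj (Z.π a)
      exact ⟨Z.ι o, ⟨_, evl_C hv o⟩, by rw [RingHom.mem_ker, map_sub, Z.alg, ho, sub_self]⟩
    · obtain ⟨w, rfl⟩ := Ideal.Quotient.mk_surjective a
      obtain ⟨_, k, hk, hs⟩ := h1 _ (ker_mem hC' c)
      have hw : w ∈ RingHom.ker (πW S) := by
        rw [RingHom.mem_ker, ← π_ev Z, e]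
        exact ha
      have sp : ∀ s, vals κ x _ Z s ∈ Ideal.span (((fam κ x _ Z).range : Set (W O G T ⧸ I)) ∩
          RingHom.ker Z.π) ⊔ RingHom.ker Z.π ^ 2 := fun s =>
        Ideal.mem_sup_left (Ideal.subset_span ⟨⟨_, evl_X hv s⟩, v0 _ Z c s⟩)
      rw [← e, ← Ideal.mem_comap]
      refine (?_ : _ ≤ Ideal.comap Z.ev _) (hs hw)
      refine sup_le (sup_le (sup_le (sup_le (fun w hw => ?_) (Ideal.span_le.2 ?_))
        (Ideal.map_le_iff_le_comap.2 fun o ho => ?_)) ?_) (Ideal.span_le.2 ?_)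
      · rw [Ideal.mem_comap, RingHom.mem_ker.1 hw]
        exact zero_mem _
      · rintro _ ⟨i, rfl⟩
        rw [SetLike.mem_coe, Ideal.mem_comap, hk.2 _ Z (hle _ Z c) le_rfl]
        exact sp (.inl i)
      · rw [Ideal.mem_comap, Ideal.mem_comap, ev_C]
        exact Ideal.mem_sup_left (Ideal.subset_span ⟨⟨_, evl_C hv o⟩, (Z.alg o).trans ho⟩)
      · refine (Ideal.pow_right_mono (J := (RingHom.ker Z.π).comap Z.ev)
          (fun w hw => (π_ev Z w).trans hw) 2).trans ?_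
        exact (Ideal.le_comap_pow _ 2).trans (Ideal.comap_mono le_sup_right)
      · rintro _ ⟨i, rfl⟩
        exact sp (.inr i)
  refine ⟨fun A _ X h c => ?_, fun A _ X h i => ?_, res, nat, fun w => ?_, fun A _ X h f => ?_⟩
  · obtain ⟨n, hn⟩ := X.nil
    exact evl_C (van A X h n hn) c
  · obtain ⟨n, hn⟩ := X.nil
    exact evl_X (van A X h n hn) _
  · have : Nonempty (Kers C') := hne.to_subtype
    obtain ⟨U, hU⟩ := exists_ultra (α := Kers C') fun a b =>
      ⟨⟨a.1 ⊓ b.1, inf_mem hC' _ a.2 _ b.2⟩, (inf_le_left : a.1 ⊓ b.1 ≤ a.1),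
        (inf_le_right : a.1 ⊓ b.1 ≤ b.1)⟩
    choose Z c e using fun p : Kers C' => p.2
    choose f hf using fun p : Kers C' => srj _ (Z p) (c p) (e p) (Ideal.Quotient.mk p.1 w)
    have := (Z (Classical.arbitrary _)).finF
    have : Finite (O ⧸ IsLocalRing.maximalIdeal O) := by
      refine Finite.of_injective (Ideal.Quotient.lift _ S.red fun c hc => (hO c).2 hc) ?_
      exact RingHom.lift_injective_of_ker_le_ideal _ _ fun c hc => (hO c).1 hc
    obtain ⟨l, hl⟩ := ulim_ser U f (IsLocalRing.maximalIdeal O) fun k =>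
      Ideal.finite_quotient_pow (IsNoetherian.noetherian _) k
    refine ⟨l, fun A _ X h => ?_⟩
    obtain ⟨n, hn⟩ := X.nil
    obtain ⟨p, a, b⟩ := ((hU ⟨_, ker_mem hC' h⟩).and (hl n)).exists
    have k := can_hom (e p) X a
    have e1 : fam κ x A X (f p - l) = 0 := evl_eq_zero (van A X h n hn) fun d hd => by
      have h3 : IsLocalRing.maximalIdeal O ≤ (RingHom.ker X.π).comap X.ι :=
        fun c hc => (X.alg c).trans ((hO c).2 hc)
      have h4 := ((Ideal.pow_right_mono h3 n).trans (Ideal.le_comap_pow _ n)) (b d hd)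
      rwa [hn, Ideal.mem_comap, Ideal.mem_bot] at h4
    rw [map_sub, sub_eq_zero] at e1
    rw [← e1, ← nat _ _ _ X _ (c p) h k, hf]
    rfl
  · obtain ⟨n, hn⟩ := X.nil
    obtain ⟨_, k, hk, _⟩ := h1 _ (ker_mem hC' h)
    refine ⟨MvPolynomial.eval₂Hom MvPolynomial.C (Sum.elim k (x (RingHom.ker X.ev)))
      (f.truncTotal n), ?_⟩
    have e1 : X.ev.comp MvPolynomial.C = X.ι := RingHom.ext (ev_C X)
    have e2 : (fun s => X.ev (Sum.elim k (x (RingHom.ker X.ev)) s)) = vals κ x A X := by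
      funext s
      rcases s with i | i
      · exact hk.2 A X (hle A X h) le_rfl i
      · rfl
    rw [fam, evl_eq (van A X h n hn), MvPolynomial.map_eval₂Hom, e1, e2]

theorem univ : UNIV := by
  intro O F G T τ _ _ _ _ _ _ _ _ _ _ S D E I0 g C κ hO hC hL ⟨A, _, X, hX⟩ hT
  have hne : (Kers (Ty C I0)).Nonempty := ⟨_, ker_mem (hC.ty I0) hX⟩
  have fin : ∀ Q, ∀ I ∈ Kers (Ty C Q), Finite (W O G T ⧸ I) := fun Q I ⟨Z, _⟩ => Z.fin
  have sub : ∀ Q ⊆ I0, Kers (Ty C I0) ⊆ Kers (Ty C Q) := fun Q hQ =>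
    kers_mono fun _ _ _ a => ⟨a.1, a.2.mono hQ⟩
  obtain ⟨y, y1, y2, -⟩ := pro (Kers (Ty C I0)) {RingHom.ker (πW S)} (Gn (g := g) C κ) (fin I0)
    (inf_mem (hC.ty I0)) (by rintro _ rfl _ rfl; exact inf_idem _)
    (by rintro _ rfl; exact ⟨_, hne.choose_spec, kers_le hne.choose_spec⟩) ⟨_, rfl⟩
    (fun I _ J hJ e x x' a b => a.mono (kers_le hJ) e b) (fun _ _ => 0)
    (fun _ _ J _ _ _ => by rw [sub_self]; exact J.zero_mem)
    (by
      rintro I hI _ rfl _
      exact step hC hL hT hI le_rfl _ (fun _ => map_zero _) fun _ _ =>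
        le_sup_right.trans le_sup_left)
  refine ⟨fam κ y, univ_fam hO (hC.ty I0) hL (fun _ _ _ a => a.1) hne y y1 y2, fun Q hQ0 hQ => ?_⟩
  obtain ⟨x, x1, x2, x3⟩ := pro (Kers (Ty C Q)) (Kers (Ty C I0)) (Gn (g := g) C κ) (fin Q)
    (inf_mem (hC.ty Q)) (inf_mem (hC.ty I0)) (fun J hJ => ⟨J, sub Q hQ0 hJ, le_rfl⟩) hne
    (fun I _ J hJ e x x' a b => a.mono (kers_le hJ) e b) y y2
    (fun I hI J hJ e => step hC hL hQ hI (kers_le hJ) _ (y1 J hJ).1 fun k hk => by
      obtain ⟨_, k', a, b⟩ := y1 J hJ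
      exact b.trans (sup_le_sup_right
        (KK_le (a.sub (hk.mono e) (kers_mono (fun _ _ _ a => a.1) hJ))) _))
  refine ⟨fam κ x, univ_fam hO (hC.ty Q) hL (fun _ _ _ a => a.1) (hne.mono (sub Q hQ0)) x x1 x2,
    fun A _ X h => ?_⟩
  have hm := ker_mem (hC.ty I0) h
  have e : vals κ x A X = vals κ y A X := by
    funext s
    rcases s with i | i
    · rfl
    · have := RingHom.mem_ker.1 (x3 _ hm (sub Q hQ0 hm) i)
      rwa [map_sub, sub_eq_zero] at this
  rw [fam, fam, e]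

end Vale.Agent.P022K.RU
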